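import Vale.Agent.P231Z.Asm.Defs
import Vale.Agent.P231.WA.Deg

/-!
# P231, Cayley case: the records of the algebraic theorem from the geometric input
-/

set_option linter.unusedSectionVars false
set_option linter.unusedVariables false

open Set Filter Module Topology
open scoped ContDiff

namespace Vale.Agent.P231Z.Asm

noncomputable section

open Vale.Agent.P231 Vale.Agent.P231.Fm Vale.Agent.P231.W Vale.Agent.P231.H584
open Vale.Agent.P231.Fm.Form (IsDeg)

section Dim

variable {U Sg Fr : Type*} {dU : Dif U} {dS : Dif Sg} {dF : Dif Fr}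
  {V : Type} [NormedAddCommGroup V] [InnerProductSpace ℝ V] [FiniteDimensional ℝ V]
  {p : Sg → U} {q : Fr → U} {ev : Fr × V → Sg}

/-- the dimension of a sphere bundle -/
theorem bun_dimLE (h : Co.Bun dU dS dF V p q ev) {n m : ℕ} (hU : WA.DimLE dU n)
    (hV : finrank ℝ V = m + 1) : WA.DimLE dS (n + m) := by
  intro E _ _ _ s x hs
  obtain ⟨G, i1, i2, i3, v, g, hG, hg, hv, hsv⟩ := hU (h.hπ hs)
  obtain ⟨f, hf, hqf⟩ := h.hq.lift hv
  have hfg : dF.At (f ∘ g) x := dF.comp hf hg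
  have hq2 : q ∘ (f ∘ g) =ᶠ[𝓝 x] p ∘ s := by
    filter_upwards [hg.continuousAt.eventually hqf, hsv] with y h1 h2
    exact h1.trans h2.symm
  obtain ⟨ξ, hξ, h1⟩ := h.lift hs hfg hq2
  set a : V := ξ x with ha
  have ha1 : ‖a‖ = 1 := h1.self_of_nhds.1
  have ha0 : a ≠ 0 := by
    intro h0
    rw [h0, norm_zero] at ha1
    exact zero_ne_one ha1
  have haa : (inner ℝ a a : ℝ) = 1 := by rw [real_inner_self_eq_norm_sq, ha1, one_pow]
  set K : Submodule ℝ V := (ℝ ∙ a)ᗮ with hK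
  have hKd : finrank ℝ K = m := by
    have h2 := Submodule.finrank_add_finrank_orthogonal (ℝ ∙ a)
    rw [finrank_span_singleton ha0, hV] at h2
    rw [hK]
    omega
  have hne : ∀ z : K, a + (z : V) ≠ 0 := fun z h0 => by
    have h2 : (inner ℝ a (z : V) : ℝ) = 0 :=
      Submodule.mem_orthogonal_singleton_iff_inner_right.1 z.2
    have h3 : (inner ℝ a (a + (z : V)) : ℝ) = 1 := by rw [inner_add_right, haa, h2, add_zero]
    rw [h0, inner_zero_right] at h3
    exact zero_ne_one h3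
  let c : K → V := fun z => ‖a + (z : V)‖⁻¹ • (a + (z : V))
  have hc : ContDiff ℝ ∞ c := by
    have h2 : ContDiff ℝ ∞ (fun z : K => a + (z : V)) := contDiff_const.add K.subtypeL.contDiff
    exact ((h2.norm ℝ hne).inv fun z => norm_ne_zero_iff.2 (hne z)).smul h2
  have hc1 : ∀ z, ‖c z‖ = 1 := fun z => by
    simp only [c]
    rw [norm_smul, norm_inv, norm_norm, inv_mul_cancel₀ (norm_ne_zero_iff.2 (hne z))]
  have hpos : ∀ᶠ y in 𝓝 x, 0 < (inner ℝ a (ξ y) : ℝ) := by
    have h2 : ContinuousAt (fun y => (inner ℝ a (ξ y) : ℝ)) x :=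
      continuousAt_const.inner hξ.continuousAt
    refine h2.eventually_const_lt ?_
    change (0 : ℝ) < inner ℝ a a
    rw [haa]
    exact one_pos
  let ζ : E → K := fun y => K.orthogonalProjectionOnto ((inner ℝ a (ξ y) : ℝ)⁻¹ • ξ y)
  have hζ : Sm ζ x := by
    filter_upwards [hξ, hpos] with y h2 h3
    exact K.orthogonalProjectionOnto.contDiff.contDiffAt.comp y
      (((contDiffAt_const.inner ℝ h2).inv h3.ne').smul h2)
  have hcζ : ∀ᶠ y in 𝓝 x, c (ζ y) = ξ y := by
    filter_upwards [h1, hpos] with y h2 h3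
    have h4 : (inner ℝ a (ξ y) : ℝ)⁻¹ • ξ y - a ∈ K := by
      rw [hK, Submodule.mem_orthogonal_singleton_iff_inner_right, inner_sub_right,
        inner_smul_right, haa, inv_mul_cancel₀ h3.ne', sub_self]
    have h5 : K.orthogonalProjectionOnto a = 0 := by
      rw [Submodule.orthogonalProjectionOnto_eq_zero_iff, hK]
      exact (ℝ ∙ a).le_orthogonal_orthogonal (Submodule.mem_span_singleton_self a)
    have h6 : ((ζ y : K) : V) = (inner ℝ a (ξ y) : ℝ)⁻¹ • ξ y - a := by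
      have h7 : ζ y = K.orthogonalProjectionOnto ((inner ℝ a (ξ y) : ℝ)⁻¹ • ξ y - a) := by
        rw [map_sub, h5, sub_zero]
      rw [h7]
      exact congrArg Subtype.val (K.orthogonalProjectionOnto_mem_subspace_eq_self ⟨_, h4⟩)
    simp only [c]
    rw [h6, add_sub_cancel, norm_smul, h2.1, mul_one, norm_inv, _root_.inv_inv, Real.norm_eq_abs,
      abs_of_pos h3, smul_smul, mul_inv_cancel₀ h3.ne', one_smul]
  refine ⟨G × K, inferInstance, inferInstance, inferInstance, fun z => ev (f z.1, c z.2),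
    fun y => (g y, ζ y), ?_, hg.prodMk hζ, ?_, ?_⟩
  · rw [finrank_prod, hKd]
    omega
  · exact h.hev (u := fun z : G × K => (f z.1, c z.2))
      ⟨⟨dF.comp (u := f) (g := Prod.fst) hf (Sm.of_contDiff contDiff_fst _),
        Sm.of_contDiff (hc.comp contDiff_snd) _⟩, Eventually.of_forall fun z => hc1 z.2⟩
  · filter_upwards [h1, hcζ] with y h2 h3
    change s y = ev (f (g y), c (ζ y))
    rw [h3]
    exact h2.2.symm

end Dim

section Cat

variable {B X : Type*} {dB : Dif B} {dX : Dif X}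

/-- the concatenation of two homotopies -/
def cat (k1 k2 : B × ℝ → X) (p : B × ℝ) : X :=
  if p.2 < 1 / 2 then k1 (p.1, Real.smoothTransition (3 * p.2)) else k2 (p.1, 2 * p.2 - 1)

variable {k1 k2 : B × ℝ → X}

theorem cat_zero (b : B) : cat k1 k2 (b, 0) = k1 (b, 0) := by
  unfold cat
  rw [if_pos (by norm_num), mul_zero, Real.smoothTransition.zero]

theorem cat_one (b : B) : cat k1 k2 (b, 1) = k2 (b, 1) := by
  unfold cat
  rw [if_neg (by norm_num)]
  norm_num

theorem cat_map (h1 : (dB.prod (Dif.lin ℝ)).Map dX k1) (h2 : (dB.prod (Dif.lin ℝ)).Map dX k2)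
    (h : ∀ b u, u ≤ 0 → k2 (b, u) = k1 (b, 1)) : (dB.prod (Dif.lin ℝ)).Map dX (cat k1 k2) := by
  intro E _ _ _ u x hu
  have hs : Sm (fun y => (u y).2) x := hu.2
  have hc : ContinuousAt (fun y => (u y).2) x := hs.continuousAt
  by_cases hx : (u x).2 < 1 / 2
  · have h3 : dX.At (fun y => k1 ((u y).1, Real.smoothTransition (3 * (u y).2))) x :=
      h1 (u := fun y => ((u y).1, Real.smoothTransition (3 * (u y).2))) ⟨hu.1,
        Sm.comp (f := fun s : ℝ => Real.smoothTransition (3 * s)) (g := fun y => (u y).2)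
          (Sm.of_contDiff (Real.smoothTransition.contDiff.comp
            (contDiff_const.mul contDiff_id)) _) hs⟩
    refine dX.congr h3 ?_
    filter_upwards [hc.eventually_lt_const hx] with y hy
    exact (if_pos hy).symm
  · have h3 : dX.At (fun y => k2 ((u y).1, 2 * (u y).2 - 1)) x :=
      h2 (u := fun y => ((u y).1, 2 * (u y).2 - 1)) ⟨hu.1,
        Sm.comp (f := fun s : ℝ => 2 * s - 1) (g := fun y => (u y).2)
          (Sm.of_contDiff (by fun_prop) _) hs⟩
    refine dX.congr h3 ?_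
    have hx' : 1 / 3 < (u x).2 := by linarith [not_lt.1 hx]
    filter_upwards [hc.eventually_const_lt hx'] with y hy
    change k2 ((u y).1, 2 * (u y).2 - 1) = cat k1 k2 (u y)
    unfold cat
    split_ifs with h4
    · rw [h _ _ (by linarith), Real.smoothTransition.one_of_one_le (by linarith)]
    · rfl

theorem cat_flow {φ : B → B} {Φ : X → X} (h1 : ∀ b s, k1 (φ b, s) = Φ (k1 (b, s)))
    (h2 : ∀ b s, k2 (φ b, s) = Φ (k2 (b, s))) (b : B) (s : ℝ) :
    cat k1 k2 (φ b, s) = Φ (cat k1 k2 (b, s)) := by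
  unfold cat
  split_ifs
  · exact h1 _ _
  · exact h2 _ _

end Cat

section Rec

variable {B U M X Sg Fr : Type*} {dB : Dif B} {dU : Dif U} {dM : Dif M} {dX : Dif X}
  {dS : Dif Sg} {dF : Dif Fr} {D c : ℝ}

/-- the standard basis of the fibre -/
abbrev o29 : OrthonormalBasis (Fin 29) ℝ F29 := EuclideanSpace.basisFun (Fin 29) ℝ

/-- **the record of the second level** -/
def Sg0.toSig {S : Sys dB dU dM 1 D c} (L : Alg.Lp S dX) {ng : B → B} {c₀ : B → X}
    (G : Sg0 dB dU dX D S.φU S.φ S.pi ng L.Φ c₀ dS dF)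
    (hng : ∀ b, S.σ (S.φ (b, D)) = ng b) (hU : WA.DimLE dU 31)
    {ψ : Form dS} {ε : Form dU} (hψ : G.bun.Ang o29 ψ ε)
    {k2 : B × ℝ → X} (hk2 : (dB.prod (Dif.lin ℝ)).Map dX k2)
    (k2φ : ∀ b s t, k2 (S.φ (b, 2 * t), s) = L.Φ (k2 (b, s), t))
    (k20 : ∀ b u, u ≤ 0 → k2 (b, u) = c₀ b) (k21 : ∀ b, k2 (b, 1) = L.cst (S.g (b, 1))) :
    Alg.Sig L dS where
  ψ := G.ψ
  p := G.p
  A := G.A
  j := G.j
  fX := G.fX
  kX := cat G.k1 k2
  SI := G.bun.SIL o29
  hψ := G.hψ
  hp := G.bun.hπ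
  p_ψ := G.p_ψ
  hA := G.hA
  A_ψ := G.A_ψ
  p_A := G.p_A
  hj := G.hj
  j_φ := G.j_φ
  p_j := G.p_j
  A_j := fun b => by rw [hng, G.A_j]
  hfX := G.hfX
  fX_ψ := G.fX_ψ
  hkX := cat_map G.hk1 hk2 fun b u hu => by rw [k20 b u hu, G.k11]
  kX_φ := fun b s t => cat_flow (φ := fun b => S.φ (b, 2 * t)) (Φ := fun x => L.Φ (x, t))
    (fun b s => G.k1_φ b s t) (fun b s => k2φ b s t) b s
  kX0 := fun b => (cat_zero b).trans (G.k10 b)
  kX1 := fun b => (cat_one b).trans (k21 b)
  SI_d := fun w => by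
    have h := G.bun.SI_d o29 w
    rw [show ((-1 : ℝ) ^ (29 + 1)) = 1 by norm_num, one_smul] at h
    exact h
  SI_mul := fun w v => G.bun.SI_mul_π o29 w v
  SI_deg := fun k w hw => G.bun.isDeg_SI o29 hw (by omega)
  SI_low := fun k w hk hw => G.bun.SI_eq_zero o29 hw (by omega)
  SI_A := fun w => by
    have h := Co.Bun.SI_neg o29 G.bun G.hA G.A_ev w
    rw [show ((-1 : ℝ) ^ 29) = -1 by norm_num, neg_one_smul] at h
    exact h
  gys := fun k w hk hw h0 => by
    obtain ⟨a, κ, h1, h2, h3, -⟩ := G.bun.gysin2 o29 hψ (by norm_num) hw h0 hk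
    exact ⟨a, κ, h1, h2, h3⟩
  dim := fun w hw => WA.DimLE.isDeg_eq_zero (m := 31 + 28)
    (bun_dimLE G.bun (m := 28) hU (by simp)) (by norm_num) hw

end Rec

end

end Vale.Agent.P231Z.Asm
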