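import Vale.Agent.P231Z.Alg.Defs
import Vale.Agent.P231.Co.SINeg

/-!
# P231, Cayley case: the geometric input of the assembly

`Sg0` is the sphere bundle of the second level with its push-off and the homotopy from the
push-off along `j` to a given map `c`. `ResX` is the residue map of the space of loops.
-/

set_option linter.unusedSectionVars false
set_option linter.unusedVariables false

namespace Vale.Agent.P231Z.Asm

open Vale.Agent.P231 Vale.Agent.P231.Fm Vale.Agent.P231.W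
open Vale.Agent.P231.Fm.Form (IsDeg)

/-- the fibre of the bundle of the second level -/
abbrev F29 : Type := EuclideanSpace ℝ (Fin 29)

/-- the sphere bundle of the second level -/
structure Sg0 {B U X Sg Fr : Type*} (dB : Dif B) (dU : Dif U) (dX : Dif X) (D : ℝ)
    (φU : U × ℝ → U) (φ : B × ℝ → B) (pi : B → U) (ng : B → B) (Φ : X × ℝ → X) (c : B → X)
    (dS : Dif Sg) (dF : Dif Fr) where
  ψ : Sg × ℝ → Sg
  p : Sg → U
  q : Fr → U
  ev : Fr × F29 → Sg
  A : Sg → Sg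
  j : B → Sg
  fX : Sg → X
  k1 : B × ℝ → X
  bun : Co.Bun dU dS dF F29 p q ev
  hψ : IsFlow dS (2 * D) ψ
  p_ψ : ∀ s t, p (ψ (s, t)) = φU (p s, 2 * t)
  hA : dS.Map dS A
  A_ev : ∀ {E : Type} [NormedAddCommGroup E] [NormedSpace ℝ E] [FiniteDimensional ℝ E]
    {u : E → Fr × F29} {x : E}, (Co.SB dF F29).At u x → A (ev (u x)) = ev ((u x).1, -(u x).2)
  A_ψ : ∀ s t, A (ψ (s, t)) = ψ (A s, t)
  p_A : ∀ s, p (A s) = p s
  hj : dB.Map dS j
  j_φ : ∀ b t, j (φ (b, 2 * t)) = ψ (j b, t)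
  p_j : ∀ b, p (j b) = pi b
  A_j : ∀ b, A (j b) = j (ng b)
  hfX : dS.Map dX fX
  fX_ψ : ∀ s t, fX (ψ (s, t)) = Φ (fX s, t)
  hk1 : (dB.prod (Dif.lin ℝ)).Map dX k1
  k1_φ : ∀ b s t, k1 (φ (b, 2 * t), s) = Φ (k1 (b, s), t)
  k10 : ∀ b, k1 (b, 0) = fX (j b)
  k11 : ∀ b, k1 (b, 1) = c b

/-- the residue map of the space of loops -/
structure ResX {U M X : Type*} (dU : Dif U) (dM : Dif M) (dX : Dif X) (ev : X → M)
    (hev : dX.Map dM ev) (Res : Form dX →ₗ[ℝ] Form dU) : Prop where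
  Res_d : ∀ w : Form dX, w.d = 0 → (Res w).d = 0
  Res_deg : ∀ (k : ℕ) (w : Form dX), IsDeg (k + 7) w → IsDeg k (Res w)
  Res_low : ∀ (k : ℕ) (w : Form dX), k < 7 → IsDeg k w → Res w = 0
  Res_ex : ∀ (k : ℕ) (w : Form dX) (κ : Form dU), IsDeg k w → w.d = 0 → Res w = κ.d →
    ∃ (a : Form dM) (η : Form dX), w = Form.pull ev hev a + η.d

end Vale.Agent.P231Z.Asm
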