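import Vale.Agent.P231Z.I7.Seven
import Vale.Agent.P231Z.Asm.Abs
import Vale.Agent.P231Z.Loop.Main
import Vale.Agent.P231Z.Res.Main

/-!
# P231, Cayley case: the records of the algebraic theorem for the system of multiplicity seven
-/

set_option maxSynthPendingDepth 3
set_option linter.unusedSectionVars false
set_option linter.unusedVariables false

open Bundle Manifold Set Filter Module MeasureTheory
open scoped ContDiff Manifold Topology ENNReal Real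

namespace Vale.Agent.P231Z.Asm

noncomputable section

open Vale.Agent.P234 Vale.Agent.P231 Vale.Agent.P231.Fm Vale.Agent.P231.W Vale.Agent.P231.WR
  Vale.Agent.P231.H766 Vale.Agent.P231.WG Vale.Agent.P231.S2II Vale.Agent.P231.WQ
  Vale.Agent.P231.L3 Vale.Agent.P231Z.I7

/-- the statement of the algebraic theorem -/
def AlgMain {B U M X Sg : Type*} (dB : Dif B) (dU : Dif U) (dM : Dif M) (dX : Dif X)
    (dS : Dif Sg) : Prop :=
  ∀ {D c : ℝ} (S : H584.Sys dB dU dM 1 D c), Alg.HU dU → Alg.HB S → ∀ (L : Alg.Lp S dX),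
    Alg.Sig L dS → ∀ {a μ : ℝ} {ρ : Form dB}, Basic S.φ S.hφ.map ρ →
    S.b1 ^ 2 = a • S.e ^ 6 + μ • (S.e ^ 2 * (S.G1 + S.G2)) + ρ.d → ∀ {ε : ℝ}, ε ≠ 0 →
    ∀ {l : Form dB}, S.b1 = ε • S.b0 + l.d → a ≠ 0 → S.I (S.α * S.α.d ^ 15) ≠ 0 →
    μ ^ 2 = -36 * a

variable {E : Type*} [NormedAddCommGroup E] [NormedSpace ℝ E]
  {M : Type*} [MetricSpace M] [ChartedSpace E M]
  [RiemannianBundle (fun x : M => TangentSpace 𝓘(ℝ, E) x)]
  {e : ∀ x : M, TangentSpace 𝓘(ℝ, E) x → M}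
  [FiniteDimensional ℝ E] [IsManifold 𝓘(ℝ, E) ∞ M]
  [IsContMDiffRiemannianBundle 𝓘(ℝ, E) ∞ E (fun x : M => TangentSpace 𝓘(ℝ, E) x)]
  [CompactSpace M] [ConnectedSpace M] [IsRiemannianManifold 𝓘(ℝ, E) M]
  (F : Facts e) {D : ℝ} (hD : 0 < D) (hB : InjGE e D) (hdiam : ∀ p q : M, dist p q ≤ D)

variable [MeasurableSpace M] [BorelSpace M]
  (hl : ∀ x y : M, dist x y = D → finrank ℝ (H775.Pl e D x y) = 2 * 3 + 2)
  (hN : finrank ℝ E = 15 + 1)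
  {p : M}
  {Pi : TangentSpace 𝓘(ℝ, E) p → TangentSpace 𝓘(ℝ, E) p →L[ℝ] TangentSpace 𝓘(ℝ, E) p}
  {o : TangentSpace 𝓘(ℝ, E) p → Fm.Lam (TangentSpace 𝓘(ℝ, E) p)}
  {ρ : TangentSpace 𝓘(ℝ, E) p → ℝ} {r₀ : ℝ}
  (hJ : FE.LineP e D p 3 Pi o) (hρ : WE.Rho e D p ρ r₀) {a : ℝ} (ha : a ≠ 0)
  {Lm : Pr e D × ℝ → Pr e D} {Y : Pr e D → E} {ε₀ : ℝ} (hL : PushL F hD hB hdiam Lm Y ε₀)
  (g : Pr e D × ℝ → M) (hg : ((dPr e D).prod (Dif.lin ℝ)).Map (dM E M) g)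
  (hg0 : ∀ b, g (b, 0) = foot b.v) (hg1 : ∀ b t, g (Lm (b, t), 1) = g (b, 1))

section core

variable {R : ℝ} (X : Fr e p R) (v0 : UT E M) {r : Eu E → ℝ} {K : Set (Eu E)} (hr : Q.Cut r K)
  (hDR : D < R) (b : OrthonormalBasis (Fin (15 + 1)) ℝ (Eu E))

/-- degrees and low cohomology of the space of pairs -/
theorem hB7 : Alg.HB (inst7 F hD hB hdiam hl hN hJ hρ ha hL g hg hg0 hg1 X v0 hr hDR b) := by
  obtain ⟨k0, k1, k6, -⟩ := low_seven F hD hB hdiam hl hN hJ hρ ha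
  exact ⟨S2II.isDeg_FF F hD hB hdiam hl hJ hρ a, CV.isDeg_alpha,
    fun w => II_part X v0 b.toBasis hr hDR (N := 15) rfl w,
    fun j w => (fibI_SL F hD hB hdiam (l := 2 * 3 + 1) hl
      (S2II.orn_b0P F hD hB hdiam (two_le (m := 3) (n := 1) hN hE7) hl hJ hρ ha) ⟨3, rfl⟩).deg j w,
    k0, k1 2 (by omega), k1 4 (by omega), k6⟩

/-- the contact volume is not zero -/
theorem hv7 : (inst7 F hD hB hdiam hl hN hJ hρ ha hL g hg hg0 hg1 X v0 hr hDR b).I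
    ((inst7 F hD hB hdiam hl hN hJ hρ ha hL g hg hg0 hg1 X v0 hr hDR b).α *
      (inst7 F hD hB hdiam hl hN hJ hρ ha hL g hg hg0 hg1 X v0 hr hDR b).α.d ^ 15) ≠ 0 := by
  have h1 := inst_vol (m := 3) (n := 1) (N := 15) F hD hB hdiam hl hN hE7 hJ hρ ha hL g hg hg0
    hg1 X v0 hr hDR b
  have h2 : 0 < (Blaschke.riemannianVolume (15 + 1) M univ).toReal := by
    rw [WH.vol_eq hN]
    exact riemVol_toReal_pos F hD hB
  have h3 : 0 < Real.Gamma ((((15 : ℕ) : ℝ) + 1) / 2) := Real.Gamma_pos_of_pos (by positivity)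
  have h4 := Real.pi_pos
  refine abs_pos.1 (lt_of_lt_of_eq ?_ h1.symm)
  positivity

end core

/-- the record of the space of loops -/
def lp7 {R : ℝ} (X : Fr e p R) (v0 : UT E M) {r : Eu E → ℝ} {K : Set (Eu E)} (hr : Q.Cut r K)
    (hDR : D < R) (b : OrthonormalBasis (Fin (15 + 1)) ℝ (Eu E)) {ε : ℝ}
    {gX k2 : Pr e D × ℝ → Loop.X M} (hG : Loop.G2 hL ε g hg gX k2)
    {Rs : Form (Loop.dX (dM E M) D) →ₗ[ℝ] Form (dUT E M)}
    (hR : Res.IsRes (Loop.dX (dM E M) D) (dUT E M) (dM E M) 7 Loop.ev Loop.map_ev Rs) :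
    Alg.Lp (inst7 F hD hB hdiam hl hN hJ hρ ha hL g hg hg0 hg1 X v0 hr hDR b)
      (Loop.dX (dM E M) D) where
  Φ := Loop.Φ D
  ev := Loop.ev
  cst := Loop.cst
  γ := Loop.γ F hD hB hdiam
  gX := gX
  Res := Rs
  hΦ := Loop.isFlow_Φ hD
  hev := Loop.map_ev
  hcst := Loop.map_cst hD
  ev_cst := Loop.ev_cst
  Φ_cst := Loop.Φ_cst
  hγ := Loop.map_γ
  γ_φ := Loop.γ_phi
  hgX := hG.hgX
  gX_φ := hG.gX_φ
  gX0 := hG.gX0
  gX1 := hG.gX1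
  Res_d := hR.d
  Res_deg := hR.deg
  Res_low := hR.low
  Res_ex := hR.ex

include hN ha in
/-- **the equation between the coefficients of the quadratic relation**, from the blocks -/
theorem hEq_of {ε : ℝ} {gX k2 : Pr e D × ℝ → Loop.X M} (hG : Loop.G2 hL ε g hg gX k2)
    (hU : Alg.HU (dUT E M)) {Rs : Form (Loop.dX (dM E M) D) →ₗ[ℝ] Form (dUT E M)}
    (hR : Res.IsRes (Loop.dX (dM E M) D) (dUT E M) (dM E M) 7 Loop.ev Loop.map_ev Rs)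
    {Sg Fr : Type*} {dS : Dif Sg} {dF : Dif Fr}
    (G : Sg0 (dPr e D) (dUT E M) (Loop.dX (dM E M) D) D (phi F) Lm Pr.v (ngP F hD hB hdiam)
      (Loop.Φ D) (fun b => k2 (b, 0)) dS dF)
    {ψ : Form dS} {eu : Form (dUT E M)} (hψ : G.bun.Ang o29 ψ eu)
    (hM : AlgMain (dPr e D) (dUT E M) (dM E M) (Loop.dX (dM E M) D) dS)
    {ℓ : Form (dPr e D)} (hℓ : b1P F hD hB hdiam hL hg (FE.FF F hD hB hdiam hl hJ hρ a) =
      (-1 : ℝ) • b0P F hD hB hdiam (FE.FF F hD hB hdiam hl hJ hρ a) + ℓ.d)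
    {a' μ : ℝ} {σ : Form (dPr e D)} (hσ : Basic Lm hL.flow.map σ)
    (hrel : b1P F hD hB hdiam hL hg (FE.FF F hD hB hdiam hl hJ hρ a) ^ 2 = a' • eP e D ^ 6 +
      μ • (eP e D ^ 2 * GsP F hD hB hdiam hg (FE.FF F hD hB hdiam hl hJ hρ a)) + σ.d)
    (ha' : a' ≠ 0) : μ ^ 2 = -36 * a' := by
  have hnt : Nontrivial E := nontrivial_of_finrank_pos (R := ℝ) (by omega)
  obtain ⟨v0, -⟩ := S2II.exists_foot (E := E) p
  obtain ⟨X⟩ := nonempty_fr F hD hB p (D + 1)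
  obtain ⟨r, K, hr, hrad⟩ := exists_radCut (V := Eu E)
  have hDR : D < D + 1 := lt_add_one D
  let b : OrthonormalBasis (Fin (15 + 1)) ℝ (Eu E) :=
    (stdOrthonormalBasis ℝ (Eu E)).reindex (finCongr (by
      rw [finrank_euclideanSpace, Fintype.card_fin, hN]))
  have hng : ∀ q : Pr e D, Th F hD hB hdiam (Lm (q, D)) = ngP F hD hB hdiam q := fun q => by
    rw [hL.Th_eq, hL.flow.add, ← two_mul, hL.flow.per]
  have hdU : WA.DimLE (dUT E M) 31 := L.dimLE_bridge (WF.dimLE_UT E M hN)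
  exact hM (inst7 F hD hB hdiam hl hN hJ hρ ha hL g hg hG.g0 hG.g1 X v0 hr hDR b) hU
    (hB7 F hD hB hdiam hl hN hJ hρ ha hL g hg hG.g0 hG.g1 X v0 hr hDR b)
    (lp7 F hD hB hdiam hl hN hJ hρ ha hL g hg hG.g0 hG.g1 X v0 hr hDR b hG hR)
    (Sg0.toSig (lp7 F hD hB hdiam hl hN hJ hρ ha hL g hg hG.g0 hG.g1 X v0 hr hDR b hG hR) G hng
      hdU hψ hG.hk2 hG.k2_φ
      (fun q u hu => Loop.X.ext fun τ => (hG.k2_0 q u hu τ).trans (hG.k2_0 q 0 le_rfl τ).symm)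
      hG.k2_1)
    (ρ := σ) hσ hrel (ε := -1) (by norm_num) (l := ℓ) hℓ ha'
    (hv7 F hD hB hdiam hl hN hJ hρ ha hL g hg hG.g0 hG.g1 X v0 hr hDR b)

end

end Vale.Agent.P231Z.Asm
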