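import Vale.Agent.P231Z.Asm.MainOf
import Vale.Agent.P231Z.Alg.Main

/-!
# P231, Cayley case: the volume inequality
-/

set_option linter.unusedSectionVars false

open Bundle Manifold
open scoped ContDiff Manifold

namespace Vale.Agent.P231Z.Asm

noncomputable section

universe u w

variable {E : Type w} [NormedAddCommGroup E] [NormedSpace ℝ E]
  {M : Type u} [MetricSpace M] [ChartedSpace E M]
  [RiemannianBundle (fun x : M => TangentSpace 𝓘(ℝ, E) x)]
  {e : ∀ x : M, TangentSpace 𝓘(ℝ, E) x → M}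
  [FiniteDimensional ℝ E] [IsManifold 𝓘(ℝ, E) ∞ M]
  [IsContMDiffRiemannianBundle 𝓘(ℝ, E) ∞ E (fun x : M => TangentSpace 𝓘(ℝ, E) x)]
  [CompactSpace M] [ConnectedSpace M] [IsRiemannianManifold 𝓘(ℝ, E) M]

/-- **the volume inequality for multiplicity seven** -/
theorem volLe_seven : Fin.VolLe e 15 7 :=
  volLe_seven_of fun _ _ _ _ _ S hU hB L G _ _ _ hρ hrel _ hε _ hl ha hv =>
    Alg.main S hU hB L G hρ hrel hε hl ha hv

end

end Vale.Agent.P231Z.Asm
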