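import Vale.Agent.P231Z.Asm.Vol
import Vale.Agent.P231Z.HU.Main
import Vale.Agent.P231Z.N2.Main
import Vale.Agent.P231Z.I7.Main
import Vale.Agent.P231Z.Fin.MainOf

/-!
# P231, Cayley case: the volume inequality from the algebraic theorem
-/

set_option maxSynthPendingDepth 3
set_option linter.unusedSectionVars false
set_option linter.unusedVariables false

open Bundle Manifold Set Filter Module MeasureTheory
open scoped ContDiff Manifold Topology ENNReal Real

namespace Vale.Agent.P231Z.Asm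

noncomputable section

open Vale.Agent.P234 Vale.Agent.P231 Vale.Agent.P231.Fm Vale.Agent.P231.W Vale.Agent.P231.WR

universe u w

variable {E : Type w} [NormedAddCommGroup E] [NormedSpace ℝ E]
  {M : Type u} [MetricSpace M] [ChartedSpace E M]
  [RiemannianBundle (fun x : M => TangentSpace 𝓘(ℝ, E) x)]
  {e : ∀ x : M, TangentSpace 𝓘(ℝ, E) x → M}
  [FiniteDimensional ℝ E] [IsManifold 𝓘(ℝ, E) ∞ M]
  [IsContMDiffRiemannianBundle 𝓘(ℝ, E) ∞ E (fun x : M => TangentSpace 𝓘(ℝ, E) x)]
  [CompactSpace M] [ConnectedSpace M] [IsRiemannianManifold 𝓘(ℝ, E) M]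

/-- **the volume inequality for multiplicity seven**, from the algebraic theorem -/
theorem volLe_seven_of (hM : ∀ (D : ℝ) {Sg : Type (max u w)} (dS : Dif Sg),
    AlgMain (dPr e D) (dUT E M) (dM E M) (Loop.dX (dM E M) D) dS) : Fin.VolLe e 15 7 := by
  intro _ _ F D hD hB hdiam hl hN
  obtain ⟨p⟩ : Nonempty M := inferInstance
  exact volume_of_blocks.{max u w, max u w} F hD hB hdiam hl hN p
    (fun _ _ => HU.hU F hD hB hdiam hl hN)
    (fun _ _ _ _ _ _ _ _ _ h _ => N2.exists_sg0 hl hN h) (hM D)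
    (fun hJ hρ _ _ _ _ hT hw _ hL g hg hg0 hg1 _ hℓ _ _ _ hσ hrel ha' hEq =>
      I7.int_seven F hD hB hdiam hl hN hJ hρ one_ne_zero hT hw hL g hg hg0 hg1 hℓ hσ hrel ha' hEq)

end

end Vale.Agent.P231Z.Asm
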