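import Vale.Agent.P231Z.Asm.Eq
import Vale.Agent.P231Z.Ang.Main
import Vale.Agent.P231Z.Quad.Inst
import Vale.Agent.P231.H512.Iso3

/-!
# P231, Cayley case: the volume inequality and the rigidity from the blocks
-/

set_option maxSynthPendingDepth 3
set_option linter.unusedSectionVars false
set_option linter.unusedVariables false

open Bundle Manifold Set Filter Module MeasureTheory
open scoped ContDiff Manifold Topology ENNReal Real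

namespace Vale.Agent.P231Z.Asm

noncomputable section

open Vale.Agent.P234 Vale.Agent.P231 Vale.Agent.P231.Fm Vale.Agent.P231.W Vale.Agent.P231.WR
  Vale.Agent.P231.H766 Vale.Agent.P231.WG Vale.Agent.P231.S2II Vale.Agent.P231.WQ
  Vale.Agent.P231.L3 Vale.Agent.P231Z.I7

universe w w'

variable {E : Type*} [NormedAddCommGroup E] [NormedSpace ℝ E]
  {M : Type*} [MetricSpace M] [ChartedSpace E M]
  [RiemannianBundle (fun x : M => TangentSpace 𝓘(ℝ, E) x)]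
  {e : ∀ x : M, TangentSpace 𝓘(ℝ, E) x → M}
  [FiniteDimensional ℝ E] [IsManifold 𝓘(ℝ, E) ∞ M]
  [IsContMDiffRiemannianBundle 𝓘(ℝ, E) ∞ E (fun x : M => TangentSpace 𝓘(ℝ, E) x)]
  [CompactSpace M] [ConnectedSpace M] [IsRiemannianManifold 𝓘(ℝ, E) M]
  (F : Facts e) {D : ℝ} (hD : 0 < D) (hB : InjGE e D) (hdiam : ∀ p q : M, dist p q ≤ D)

/-- the statement of the block of the second level, for given lifted flow and push-off field -/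
def SigFor (Lm : Pr e D × ℝ → Pr e D) (Y : Pr e D → E) : Prop :=
  ∃ ε₂ > 0, ∀ ε ∈ Ioc 0 ε₂, ∀ c : Pr e D → Loop.X M,
    (∀ b τ, (c b).1 τ = poP e Y ε (Lm (b, 4 * D * τ))) →
    ∃ (Sg : Type w) (Fr : Type w') (dS : Dif Sg) (dF : Dif Fr),
      Nonempty (Sg0 (dPr e D) (dUT E M) (Loop.dX (dM E M) D) D (phi F) Lm Pr.v
        (ngP F hD hB hdiam) (Loop.Φ D) c dS dF)

variable [MeasurableSpace M] [BorelSpace M]
  (hl : ∀ x y : M, dist x y = D → finrank ℝ (H775.Pl e D x y) = 2 * 3 + 2)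
  (hN : finrank ℝ E = 15 + 1)

/-- the statement of the block of integrality -/
def IntFor {p : M}
    {Pi : TangentSpace 𝓘(ℝ, E) p → TangentSpace 𝓘(ℝ, E) p →L[ℝ] TangentSpace 𝓘(ℝ, E) p}
    {o : TangentSpace 𝓘(ℝ, E) p → Fm.Lam (TangentSpace 𝓘(ℝ, E) p)}
    {ρ : TangentSpace 𝓘(ℝ, E) p → ℝ} {r₀ : ℝ}
    (hJ : FE.LineP e D p 3 Pi o) (hρ : WE.Rho e D p ρ r₀) (a : ℝ)
    {Lm : Pr e D × ℝ → Pr e D} {Y : Pr e D → E} {ε₀ : ℝ} (hL : PushL F hD hB hdiam Lm Y ε₀) :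
    Prop :=
  ∀ (g : Pr e D × ℝ → M) (hg : ((dPr e D).prod (Dif.lin ℝ)).Map (dM E M) g),
    (∀ b, g (b, 0) = foot b.v) → (∀ b t, g (Lm (b, t), 1) = g (b, 1)) →
    ∀ {ℓ : Form (dPr e D)}, b1P F hD hB hdiam hL hg (FE.FF F hD hB hdiam hl hJ hρ a) =
      (-1 : ℝ) • b0P F hD hB hdiam (FE.FF F hD hB hdiam hl hJ hρ a) + ℓ.d →
    ∀ {a' μ : ℝ} {σ : Form (dPr e D)}, Basic Lm hL.flow.map σ →
      b1P F hD hB hdiam hL hg (FE.FF F hD hB hdiam hl hJ hρ a) ^ 2 = a' • eP e D ^ 6 +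
        μ • (eP e D ^ 2 * GsP F hD hB hdiam hg (FE.FF F hD hB hdiam hl hJ hρ a)) + σ.d →
      a' ≠ 0 → μ ^ 2 = -36 * a' → FE.kap 3 a ^ 2 ≤ |a'|

include hN in
/-- **the volume inequality from the blocks**, for given lifted flow and push-off field -/
theorem volume_of {p : M}
    {Pi : TangentSpace 𝓘(ℝ, E) p → TangentSpace 𝓘(ℝ, E) p →L[ℝ] TangentSpace 𝓘(ℝ, E) p}
    {o : TangentSpace 𝓘(ℝ, E) p → Fm.Lam (TangentSpace 𝓘(ℝ, E) p)}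
    {ρ : TangentSpace 𝓘(ℝ, E) p → ℝ} {r₀ : ℝ}
    (hJ : FE.LineP e D p 3 Pi o) (hρ : WE.Rho e D p ρ r₀) {a : ℝ} (ha : a ≠ 0)
    {Lm : Pr e D × ℝ → Pr e D} {Y : Pr e D → E} {ε₀ : ℝ} (hL : PushL F hD hB hdiam Lm Y ε₀)
    (hU : Alg.HU (dUT E M)) (hS : SigFor.{w, w'} F hD hB hdiam Lm Y)
    (hM : ∀ {Sg : Type w} (dS : Dif Sg),
      AlgMain (dPr e D) (dUT E M) (dM E M) (Loop.dX (dM E M) D) dS)
    (hI : IntFor F hD hB hdiam hl hJ hρ a hL) :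
    Blaschke.riemannianVolume (15 + 1) M univ ≤
      ENNReal.ofReal (Blaschke.modelVolume 15 7 D) := by
  obtain ⟨q, pl, hq, hp, h1, h2⟩ := Quad.exists_quad_M F hD hB
  obtain ⟨Rs, hR⟩ := Res.exists_ResX F hD hB hdiam (n := 3) hl hJ hρ (by omega) Loop.map_ev hq hp
    h1 h2
  obtain ⟨ε₂, hε₂, hS⟩ := hS
  obtain ⟨ε, g, hg, gX, k2, hε, hG⟩ := Loop.exists_g2 hL (l := 2 * 3 + 1) hl hε₂
  obtain ⟨Sg, Fr, dS, dF, ⟨G⟩⟩ := hS ε ⟨hG.mem.1, hε⟩ (fun b => k2 (b, 0))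
    fun b τ => hG.k2_0 b 0 le_rfl τ
  obtain ⟨ψ, eu, hψ⟩ := Ang.exists_ang_UT G.bun o29 (by norm_num)
  obtain ⟨ℓ, hℓ⟩ := hG.b1 _ (FE.FF_d F hD hB hdiam hl hJ hρ a)
  have hℓ' : b1P F hD hB hdiam hL hg (FE.FF F hD hB hdiam hl hJ hρ a) =
      (-1 : ℝ) • b0P F hD hB hdiam (FE.FF F hD hB hdiam hl hJ hρ a) + ℓ.d := hℓ
  obtain ⟨a', μ, σ, hσ, hrel⟩ := rel_seven F hD hB hdiam hl hN hJ hρ ha hL g hg hG.g0 hG.g1 hℓ'
  have ha' := a_ne_seven F hD hB hdiam hl hN hJ hρ ha hL g hg hG.g0 hG.g1 hℓ' hσ hrel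
  have hEq := hEq_of F hD hB hdiam hl hN hJ hρ ha hL g hg hG hU hR G hψ (hM dS) hℓ' hσ hrel ha'
  exact volume_seven_of F hD hB hdiam hl hN hJ hρ ha hL g hg hG.g0 hG.g1 hℓ' hσ hrel
    (hI g hg hG.g0 hG.g1 hℓ' hσ hrel ha' hEq) hEq

include hN in
/-- **the volume inequality from the blocks** -/
theorem volume_of_blocks (p : M)
    (hU : ∀ {o : TangentSpace 𝓘(ℝ, E) p → Fm.Lam (TangentSpace 𝓘(ℝ, E) p)}
      {ρ : TangentSpace 𝓘(ℝ, E) p → ℝ} {r₀ : ℝ}, FE.LineP e D p 3 (FE.PiP e D p) o →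
      WE.Rho e D p ρ r₀ → Alg.HU (dUT E M))
    (hS : ∀ {o : TangentSpace 𝓘(ℝ, E) p → Fm.Lam (TangentSpace 𝓘(ℝ, E) p)}
      {ρ : TangentSpace 𝓘(ℝ, E) p → ℝ} {r₀ : ℝ}, FE.LineP e D p 3 (FE.PiP e D p) o →
      WE.Rho e D p ρ r₀ → ∀ {ι : Type} [Fintype ι] [DecidableEq ι] {X δ : ι → UT E M → E}
      {ε ε₀ : ℝ} (h : S2N.Fam F hD hB hdiam (2 * 3 + 1) X δ ε),
      PushL F hD hB hdiam (S2N.Lam (l := 2 * 3 + 1) hl h) (S2N.Yb F hD hB hdiam X δ ε) ε₀ →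
      SigFor.{w, w'} F hD hB hdiam (S2N.Lam (l := 2 * 3 + 1) hl h) (S2N.Yb F hD hB hdiam X δ ε))
    (hM : ∀ {Sg : Type w} (dS : Dif Sg),
      AlgMain (dPr e D) (dUT E M) (dM E M) (Loop.dX (dM E M) D) dS)
    (hI : ∀ {o : TangentSpace 𝓘(ℝ, E) p → Fm.Lam (TangentSpace 𝓘(ℝ, E) p)}
      {ρ : TangentSpace 𝓘(ℝ, E) p → ℝ} {r₀ : ℝ} (hJ : FE.LineP e D p 3 (FE.PiP e D p) o)
      (hρ : WE.Rho e D p ρ r₀) {T : UT E M → ℝ → E →ₗ[ℝ] E} {Lm : Pr e D × ℝ → Pr e D}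
      {Y : Pr e D → E} {ε₀ : ℝ}, S2I3.LT F hD hB hdiam T →
      (∀ b t, (vec' (Lm (b, t)).w : E) =
        (nm (gm e (b.v, t)) (T b.v t (vec' b.w)))⁻¹ • T b.v t (vec' b.w)) →
      (∀ b t, Lm (S2N.rev F hD hB hdiam b, t) = S2N.rev F hD hB hdiam (Lm (b, -t))) →
      ∀ hL : PushL F hD hB hdiam Lm Y ε₀, IntFor F hD hB hdiam hl hJ hρ 1 hL) :
    Blaschke.riemannianVolume (15 + 1) M univ ≤
      ENNReal.ofReal (Blaschke.modelVolume 15 7 D) := by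
  obtain ⟨o, hJ⟩ := FE.exists_line F hD hB hdiam (n := 3) hl (by omega) p
  obtain ⟨ρ, r₀, hρ⟩ := exists_rho (E := E) (p := p) hD
  obtain ⟨ι, _, _, X, δ, ε, σ, hfam, -, hX, hδ⟩ :=
    S2N.exists_fam F hD hB hdiam (l := 2 * 3 + 1) hl
  obtain ⟨ε₀, hL⟩ := S2N.exists_pushL_of_fam (l := 2 * 3 + 1) hl hfam
  exact volume_of F hD hB hdiam hl hN hJ hρ one_ne_zero hL (hU hJ hρ)
    (hS hJ hρ hfam hL) hM (hI hJ hρ (hfam.lt (l := 2 * 3 + 1) hl hX hδ)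
      (S2N.Lam_w (l := 2 * 3 + 1) hl hfam) (S2N.Lam_rev (l := 2 * 3 + 1) hl hfam hX hδ) hL)

omit [MeasurableSpace M] [BorelSpace M] in
/-- rigidity from the volume inequality -/
theorem rig_seven_of (he : IsExp e) (hinj : Blaschke.InjGeDiam e) (hN : finrank ℝ E = 15 + 1)
    (hl : IsLeast {k | Blaschke.MultLE e k} 7)
    (hV : ∀ [MeasurableSpace M] [BorelSpace M] (_ : Facts e) {D : ℝ} (_ : 0 < D) (_ : InjGE e D)
      (_ : ∀ p q : M, dist p q ≤ D)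
      (_ : ∀ x y : M, dist x y = D → finrank ℝ (H775.Pl e D x y) = 2 * 3 + 2),
      Blaschke.riemannianVolume (15 + 1) M univ ≤
        ENNReal.ofReal (Blaschke.modelVolume 15 7 D)) :
    H512.Rig e (Metric.diam (univ : Set M)) 7 := by
  borelize M
  have F : Facts e := facts_of_isExp he
  obtain ⟨x₀⟩ : Nonempty M := inferInstance
  have hD : 0 < Metric.diam (univ : Set M) := diam_pos he hN x₀
  have hB : InjGE e (Metric.diam (univ : Set M)) := injGE_of_injOn F hD hinj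
  have hd : ∀ x y : M, dist x y ≤ Metric.diam (univ : Set M) := fun x y =>
    Metric.dist_le_diam_of_mem (isCompact_univ.isBounded) (mem_univ x) (mem_univ y)
  obtain ⟨-, h2, hP⟩ := H703.mult_of_isLeast he F hD hB hd rfl hN hl
  exact H512.rig_of_volume he hinj hN hl (hV F hD hB hd hP)

end

end Vale.Agent.P231Z.Asm
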